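import Mathlib
import Vale.Agent.P339.H283.Defs
import Vale.Agent.P339.R2.H375.Final
import Vale.Agent.P339.R2.H375.Alph3

/-!
P339: for every `s > (10 + √2) / 14 = 0.8153...` and all large `q`, `Gap_q(1, s)` (2-to-1 games
with perfect completeness) is NP-hard; hence `s* ≤ (10 + √2) / 14`. Above the threshold `s*` all
large alphabets are hard. The PCP theorem and parallel repetition are proved in the imported files.
-/

namespace Vale.Agent.Results.P339.TenSqrtTwo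

open Vale.Agent.P339.H283

theorem result :
    (∀ s : ℝ, (10 + Real.sqrt 2) / 14 < s → ∃ q₀ : ℕ, ∀ q : ℕ, q₀ ≤ q → GapHard q 1 s) ∧
      sStar ≤ (10 + Real.sqrt 2) / 14 ∧
      (∀ s : ℝ, sStar < s → ∃ q₀ : ℕ, ∀ q : ℕ, q₀ ≤ q → GapHard q 1 s) ∧
      (∀ (q m : ℕ) (s : ℝ), 0 < q → 0 < m → GapHard q 1 s →
        GapHard (q + m) 1 (s + (1 - s) / m)) ∧
      (∀ (q k : ℕ) (s : ℝ), 0 < q → 0 < k → GapHard q 1 s → GapHard (k * q) 1 s) :=
  ⟨fun _ hs => Vale.Agent.P339.R2.H375.Al.gapHard2_large hs,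
    Vale.Agent.P339.R2.H375.sStar_le2,
    fun _ hs => Vale.Agent.P339.R2.H375.Al.gapHard_of_sStar_lt hs,
    fun _ _ _ hq hm h => Vale.Agent.P339.R2.H375.Al.GapHard_add hq hm h,
    fun _ _ _ hq hk h => Vale.Agent.P339.R2.H375.Al.GapHard_mul hq hk h⟩

end Vale.Agent.Results.P339.TenSqrtTwo
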